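import Vale.Agent.P101.Final

open Filter Vale.Agent.P101
open scoped TensorProduct BoundedContinuousFunction

theorem Vale.Agent.Results.P101.A_full.result :
    (∃ (Z : Type) (_ : CStarAlgebra Z), IsJiangSu Z) ∧
    (∀ (A : Type) [CStarAlgebra A] (ω : Ultrafilter ℕ), ∃ (U : Type) (_ : CStarAlgebra U)
      (π : (ℕ →ᵇ A) →⋆ₐ[ℂ] U), IsUltrapower ω π) ∧
    ∀ (Z : Type) [CStarAlgebra Z], IsJiangSu Z →
      ∀ (A : Type) [CStarAlgebra A] [Nontrivial A] [TopologicalSpace.SeparableSpace A]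
        (ω : Ultrafilter ℕ), (ω : Filter ℕ) ≤ cofinite →
        ∀ (U : Type) [CStarAlgebra U] (π : (ℕ →ᵇ A) →⋆ₐ[ℂ] U), IsUltrapower ω π →
          NoCharacters (centralSeq π) →
          ∀ (B : Type) [CStarAlgebra B] (ι : A ⊗[ℂ] Z →⋆ₐ[ℂ] B),
            Function.Injective ι → DenseRange ι → Nonempty (A ≃⋆ₐ[ℂ] B) :=
  ⟨exists_jiangSu, exists_ultrapower, fun _ _ hZ _ _ _ _ _ hω _ _ _ h hF _ _ ι hι hd =>
    stable_of_noCharacters hZ hω h hF ι hι hd⟩
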