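import Vale.Agent.P101.Bridge

open Filter Vale.Agent.P101.V2
open scoped TensorProduct BoundedContinuousFunction

theorem Vale.Agent.Results.P101.B_min.result :
    (∃ (Z : Type) (_ : CStarAlgebra Z), IsJiangSu Z) ∧
    ∀ (Z : Type) [CStarAlgebra Z], IsJiangSu Z → SimpleMonotracial Z ∧
      ∀ (A : Type) [CStarAlgebra A] [Nontrivial A] [TopologicalSpace.SeparableSpace A]
        (ω : Ultrafilter ℕ), (ω : Filter ℕ) ≤ cofinite → HasUltrapower A ω ∧ HasMinTensor A Z ∧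
        ∀ (U : Type) [CStarAlgebra U] (π : (ℕ →ᵇ A) →⋆ₐ[ℂ] U), IsUltrapower ω π →
          NoCharacters (centralSeq π) →
          ∀ (B : Type) [CStarAlgebra B] (ι : A ⊗[ℂ] Z →⋆ₐ[ℂ] B),
            IsMinTensor ι → Nonempty (A ≃⋆ₐ[ℂ] B) :=
  ⟨P101.exists_jiangSu2, fun Z _ h => have hZ := P101.isJiangSu_iff.1 h; ⟨⟨hZ.isSimpleRing,
    hZ.not_finiteDimensional, hZ.existsUnique_trace⟩, fun A _ _ _ ω hω =>
      ⟨P101.exists_ultrapower A ω, have := hZ.separable; P101.exists_minTensor A Z,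
        fun _ _ _ h hF _ _ ι (hι : P101.IsMinTensor ι) =>
          P101.stable_of_noCharacters hZ hω h hF ι hι.injective hι.1⟩⟩⟩
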